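import Mathlib.Data.Fintype.Option
import Mathlib.Data.Fin.VecNotation
import Mathlib.Tactic.Group
import Mathlib.Tactic.FinCases
import Vale.Agent.P193.Full.Interfaces

/-! Free groups of finite rank as subgroups of finite index in the one of rank two. -/

namespace Vale.Agent.P193.Amb

variable (m : ℕ)

/-- Shorthand for the free group on the Schreier generators. -/
abbrev FA := FreeGroup (Option (Fin (m + 1)))

/-- The Schreier generators inside `F₂`. -/
def schreier : FA m →* FreeGroup (Fin 2) :=
  FreeGroup.lift fun o => match o with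
    | none => FreeGroup.of 0 ^ (m + 1)
    | some i => (FreeGroup.of 0 ^ (i : ℕ))⁻¹ * FreeGroup.of 1 * FreeGroup.of 0 ^ (i : ℕ)

/-- The letter `a` acting on cosets with their Schreier words. -/
def pa : Equiv.Perm (Fin (m + 1) × FA m) where
  toFun s := (s.1 + 1, if s.1 = Fin.last m then FreeGroup.of none * s.2 else s.2)
  invFun s := (s.1 - 1, if s.1 - 1 = Fin.last m then (FreeGroup.of none)⁻¹ * s.2 else s.2)
  left_inv := by
    rintro ⟨i, g⟩
    simp only [add_sub_cancel_right]
    split_ifs <;> simp
  right_inv := by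
    rintro ⟨i, g⟩
    simp only [sub_add_cancel]
    split_ifs <;> simp

/-- The letter `b` acting on cosets with their Schreier words. -/
def pb : Equiv.Perm (Fin (m + 1) × FA m) where
  toFun s := (s.1, FreeGroup.of (some s.1) * s.2)
  invFun s := (s.1, (FreeGroup.of (some s.1))⁻¹ * s.2)
  left_inv := by rintro ⟨i, g⟩; simp
  right_inv := by rintro ⟨i, g⟩; simp

/-- The action of `F₂`. -/
def act : FreeGroup (Fin 2) →* Equiv.Perm (Fin (m + 1) × FA m) :=
  FreeGroup.lift ![pa m, pb m]

theorem act_pow (g : FA m) : ∀ k, (hk : k ≤ m) →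
    act m (FreeGroup.of 0 ^ k) (0, g) = (⟨k, Nat.lt_succ_of_le hk⟩, g) := by
  intro k
  induction k with
  | zero => intro _; simp
  | succ k ih =>
    intro hk
    rw [pow_succ', map_mul, Equiv.Perm.mul_apply, ih (by omega)]
    have hne : (⟨k, by omega⟩ : Fin (m + 1)) ≠ Fin.last m := by
      rw [Ne, Fin.ext_iff, Fin.val_last]
      exact (Nat.lt_of_succ_le hk).ne
    simp only [act, FreeGroup.lift_apply_of, Matrix.cons_val_zero, pa, Equiv.coe_fn_mk, if_neg hne]
    refine Prod.ext (Fin.ext ?_) rfl
    simp [Fin.val_add_one, hne]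

theorem act_schreier (y : FA m) : ∀ g, act m (schreier m y) (0, g) = (0, y * g) := by
  refine FreeGroup.induction_on y (by simp) (fun o g => ?_) (fun o ih g => ?_)
    (fun u v hu hv g => ?_)
  · change act m (schreier m (FreeGroup.of o)) (0, g) = (0, FreeGroup.of o * g)
    rcases o with _ | i
    · simp only [schreier, FreeGroup.lift_apply_of]
      rw [pow_succ', map_mul, Equiv.Perm.mul_apply, act_pow m g m le_rfl]
      simp [act, pa, Fin.last]
      ext
      simp [Fin.val_add_one, Fin.last]
    · simp only [schreier, FreeGroup.lift_apply_of, map_mul, Equiv.Perm.mul_apply, map_inv]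
      rw [act_pow m g i.val (by omega), Equiv.Perm.inv_eq_iff_eq,
        act_pow m _ i.val (by omega)]
      simp [act, pb]
  · rw [map_inv, map_inv, Equiv.Perm.inv_eq_iff_eq]
    exact (by rw [ih]; simp)
  · rw [map_mul, map_mul, Equiv.Perm.mul_apply, hv, hu, mul_assoc]

/-- The element of a coset with its Schreier word. -/
def rep (s : Fin (m + 1) × FA m) : FreeGroup (Fin 2) := FreeGroup.of 0 ^ (s.1 : ℕ) * schreier m s.2

theorem rep_act (w : FreeGroup (Fin 2)) : ∀ s, rep m (act m w s) = w * rep m s := by
  refine FreeGroup.induction_on w (by simp) (fun x => ?_) (fun x ih s => ?_) (fun u v hu hv s => ?_)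
  · change ∀ s, rep m (act m (FreeGroup.of x) s) = FreeGroup.of x * rep m s
    rintro ⟨i, g⟩
    match x with
    | 0 =>
      simp only [act, FreeGroup.lift_apply_of, Matrix.cons_val_zero, pa, Equiv.coe_fn_mk, rep]
      by_cases h : i = Fin.last m
      · subst h
        simp [schreier, ← mul_assoc, ← pow_succ']
      · simp [Fin.val_add_one, h, pow_succ', mul_assoc]
    | 1 =>
      simp only [act, FreeGroup.lift_apply_of, Matrix.cons_val_one, Matrix.cons_val_zero, pb,
        Equiv.coe_fn_mk, rep]
      simp [schreier, mul_assoc]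
  · have h := ih ((act m (FreeGroup.of x))⁻¹ s)
    rw [← Equiv.Perm.mul_apply, mul_inv_cancel, Equiv.Perm.one_apply] at h
    rw [map_inv, h, inv_mul_cancel_left]
  · rw [map_mul, Equiv.Perm.mul_apply, hu, hv, mul_assoc]

theorem schreier_injective : Function.Injective (schreier m) := by
  intro y y' h
  have h1 := act_schreier m y 1
  rw [h, act_schreier m y' 1] at h1
  simpa using (congrArg Prod.snd h1).symm

theorem finiteIndex_schreier : (schreier m).range.FiniteIndex := by
  rw [Subgroup.finiteIndex_iff_finite_quotient]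
  refine Finite.of_surjective
    (fun i : Fin (m + 1) => (QuotientGroup.mk (FreeGroup.of 0 ^ (i : ℕ)) :
      FreeGroup (Fin 2) ⧸ (schreier m).range)) fun q => ?_
  obtain ⟨w, rfl⟩ := QuotientGroup.mk_surjective q
  have h := rep_act m w (0, 1)
  rw [show rep m (0, 1) = 1 by simp [rep], mul_one] at h
  refine ⟨(act m w (0, 1)).1, QuotientGroup.eq.2 ⟨(act m w (0, 1)).2, ?_⟩⟩
  exact eq_inv_mul_iff_mul_eq.2 h

/-- Every free group of finite rank at least two has finite index in `F₂`. -/
theorem finiteIndexFree : FiniteIndexFree := by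
  intro A _ _
  have := Fintype.ofFinite A
  obtain ⟨m, hm⟩ : ∃ m, Fintype.card A = m + 1 + 1 :=
    ⟨Fintype.card A - 2, by have := Fintype.one_lt_card (α := A); omega⟩
  let q : A ≃ Option (Fin (m + 1)) := Fintype.equivOfCardEq (by simp [hm])
  refine ⟨(schreier m).comp (FreeGroup.freeGroupCongr q).toMonoidHom,
    (schreier_injective m).comp (MulEquiv.injective _), ?_⟩
  rw [MonoidHom.range_comp, MonoidHom.range_eq_top_of_surjective _ (MulEquiv.surjective _),
    ← MonoidHom.range_eq_map]
  exact finiteIndex_schreier m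

end Vale.Agent.P193.Amb
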