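import Mathlib.GroupTheory.CoprodI
import Mathlib.Computability.Partrec
import Mathlib.Computability.RE

/-! The word problem of a free product by the stack of its syllables. -/

namespace Vale.Agent.P193.Amb

open Monoid

theorem neWord_prod_ne_one {ι : Type} [DecidableEq ι] {M : ι → Type} [∀ i, Group (M i)] {i j : ι}
    (W : CoprodI.NeWord M i j) : W.prod ≠ 1 := by
  classical
  intro h
  have h2 : W.toWord = CoprodI.Word.empty := by
    apply (CoprodI.Word.equiv (M := M)).symm.injective
    change W.prod = CoprodI.Word.prod CoprodI.Word.empty
    rw [h, CoprodI.Word.prod_empty]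
  exact W.toList_ne_nil (congrArg CoprodI.Word.toList h2)

variable {α β σ : Type} [Primcodable α] [Primcodable β] [Primcodable σ]

theorem computable_foldl {f : σ → β → σ} (hf : Computable₂ f) (s₀ : σ) :
    Computable fun l : List β => l.foldl f s₀ := by
  have h : Computable fun l : List β =>
      Nat.rec (motive := fun _ => σ) s₀ (fun k st => (l[k]?).elim st (f st)) l.length := by
    refine Computable.nat_rec (h := fun l p => (l[p.1]?).elim p.2 (f p.2)) (Computable.list_length (α := β)) (Computable.const (α := List β) s₀) ?_
    have : Computable fun p : List β × ℕ × σ =>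
        Option.casesOn (motive := fun _ => σ) (p.1[p.2.1]?) p.2.2 (fun b => f p.2.2 b) :=
      Computable.option_casesOn
        (Computable.list_getElem?.comp (Computable.fst (α := List β) (β := ℕ × σ))
          (Computable.fst.comp Computable.snd))
        (Computable.snd.comp Computable.snd)
        (hf.comp (Computable.snd.comp (Computable.snd.comp Computable.fst)) Computable.snd).to₂
    exact (this.of_eq (g := fun p => (p.1[p.2.1]?).elim p.2.2 (f p.2.2)) fun p => by
      cases hq : p.1[p.2.1]? <;> simp [hq]).to₂
  refine h.of_eq fun l => ?_
  have key : ∀ k, k ≤ l.length →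
      Nat.rec (motive := fun _ => σ) s₀ (fun k st => (l[k]?).elim st (f st)) k =
        (l.take k).foldl f s₀ := by
    intro k hk
    induction k with
    | zero => simp
    | succ k ih =>
      have hk' : k < l.length := hk
      simp only [ih hk'.le, List.getElem?_eq_getElem hk', Option.elim_some,
        List.take_succ_eq_append_getElem hk', List.foldl_append, List.foldl_cons, List.foldl_nil]
  rw [key _ le_rfl, List.take_length]

section

variable {ι : Type} [DecidableEq ι] {M : ι → Type} [∀ i, Group (M i)]
  (c : α → ι) (v : ∀ a, M (c a)) (T : List α → Bool) [Inhabited α]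

/-- The value of a word in the free product. -/
def val (u : List α) : CoprodI M := (u.map fun a => CoprodI.of (v a)).prod

theorem exists_mono {u : List α} {i : ι} (h : ∀ b ∈ u, c b = i) :
    ∃ x : M i, val c v u = CoprodI.of x := by
  induction u with
  | nil => exact ⟨1, by simp [val]⟩
  | cons b u ih =>
    obtain ⟨x, hx⟩ := ih fun d hd => h d (List.mem_cons_of_mem _ hd)
    obtain rfl : c b = i := h b List.mem_cons_self
    refine ⟨v b * x, ?_⟩
    rw [map_mul, ← hx]
    simp [val]

/-- Add a letter to the stack of syllables, top first. -/
def push (s : List (List α)) (a : α) : List (List α) :=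
  bif (s.head?.bind List.head?).elim false (fun b => decide (c b = c a)) then
    (bif T (s.headI ++ [a]) then s.tail else (s.headI ++ [a]) :: s.tail)
  else bif T [a] then s else [a] :: s

/-- A stack of non-trivial syllables with alternating colours, with its value. -/
inductive St : List (List α) → Option ι → CoprodI M → Prop
  | nil : St [] none 1
  | cons {s o y} (u : List α) (i : ι) (x : M i) :
      St s o y → o ≠ some i → x ≠ 1 → u ≠ [] → (∀ b ∈ u, c b = i) →
      val c v u = CoprodI.of x → St (u :: s) (some i) (y * CoprodI.of x)

variable (hT : ∀ u i, (∀ b ∈ u, c b = i) → (T u = true ↔ val c v u = 1))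
include hT

theorem push_ok {s o y} (h : St c v s o y) (a : α) :
    ∃ o', St c v (push c T s a) o' (y * CoprodI.of (v a)) := by
  have hone : val c v [a] = CoprodI.of (v a) := by simp [val]
  have single : ∀ {s o y}, St c v s o y → o ≠ some (c a) →
      ∃ o', St c v (bif T [a] then s else [a] :: s) o' (y * CoprodI.of (v a)) := by
    intro s o y h ho
    have hTa := hT [a] (c a) (by simp)
    rw [hone] at hTa
    cases hb : T [a]
    · refine ⟨_, St.cons [a] (c a) (v a) h ho (fun hv => ?_) (by simp) (by simp) hone⟩
      rw [hTa.2 (by rw [hv, map_one])] at hb
      simp at hb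
    · exact ⟨o, by rw [hTa.1 hb, mul_one]; exact h⟩
  cases h with
  | nil =>
    have := single (St.nil (c := c) (v := v)) (by simp)
    simpa [push] using this
  | @cons s' o' y' u i x h' ho' hx hu hmono hval =>
    obtain ⟨b, u', rfl⟩ := List.exists_cons_of_ne_nil hu
    have hb : c b = i := hmono b List.mem_cons_self
    by_cases hci : i = c a
    · subst hci
      have hmono' : ∀ d ∈ (b :: u') ++ [a], c d = c a := by
        intro d hd
        rcases List.mem_append.1 hd with hd | hd
        · exact hmono d hd
        · rw [List.mem_singleton.1 hd]
      have hval' : val c v ((b :: u') ++ [a]) = CoprodI.of (x * v a) := by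
        rw [map_mul, ← hval]
        simp [val, mul_assoc]
      have hTu := hT _ _ hmono'
      rw [hval'] at hTu
      have hp : push c T ((b :: u') :: s') a =
          bif T ((b :: u') ++ [a]) then s' else ((b :: u') ++ [a]) :: s' := by
        simp [push, hb]
      rw [hp, mul_assoc, ← map_mul]
      cases hcase : T ((b :: u') ++ [a])
      · refine ⟨_, St.cons _ (c a) (x * v a) h' ho' (fun hv => ?_) (by simp) hmono' hval'⟩
        rw [hTu.2 (by rw [hv, map_one])] at hcase
        simp at hcase
      · exact ⟨o', by rw [hTu.1 hcase, mul_one]; exact h'⟩
    · have := single (St.cons (b :: u') i x h' ho' hx hu hmono hval) (by simpa using hci)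
      simpa [push, hb, hci] using this

theorem run_ok (w : List α) {s o y} (h : St c v s o y) :
    ∃ o', St c v (w.foldl (push c T) s) o' (y * val c v w) := by
  induction w generalizing s o y with
  | nil => exact ⟨o, by simpa [val] using h⟩
  | cons a w ih =>
    obtain ⟨o', h'⟩ := push_ok c v T hT h a
    obtain ⟨o'', h''⟩ := ih h'
    exact ⟨o'', by simpa [val, mul_assoc] using h''⟩

omit hT in
theorem st_neWord {s o y} (h : St c v s o y) :
    (s = [] ∧ o = none ∧ y = 1) ∨
      ∃ i j, o = some i ∧ ∃ W : CoprodI.NeWord M j i, W.prod = y := by
  induction h with
  | nil => exact Or.inl ⟨rfl, rfl, rfl⟩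
  | @cons s o y u i x _ ho hx _ _ _ ih =>
    right
    rcases ih with ⟨-, -, rfl⟩ | ⟨i', j, rfl, W, rfl⟩
    · exact ⟨i, i, rfl, .singleton x hx, by simp⟩
    · exact ⟨i, j, rfl, .append W (by simpa using ho) (.singleton x hx), by simp⟩

theorem val_eq_one_iff (w : List α) : val c v w = 1 ↔ w.foldl (push c T) [] = [] := by
  obtain ⟨o, h⟩ := run_ok c v T hT w (St.nil (c := c) (v := v))
  rw [one_mul] at h
  constructor
  · intro hw
    rcases st_neWord c v h with ⟨hs, -, -⟩ | ⟨i, j, -, W, hW⟩
    · exact hs
    · exact absurd (hW.trans hw) (neWord_prod_ne_one W)
  · intro hs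
    rw [hs] at h
    generalize val c v w = y at h ⊢
    cases h
    rfl

omit hT in
theorem computable_push [Finite α] (hTc : Computable T) : Computable₂ (push c T) := by
  have hk : Computable₂ fun b a : α => decide (c b = c a) :=
    (Primrec.dom_finite fun p : α × α => decide (c p.1 = c p.2)).to_comp.to₂
  have hs : Computable fun p : List (List α) × α => p.1.headI ++ [p.2] :=
    Computable.list_append.comp (Primrec.list_headI.to_comp.comp Computable.fst)
      (Computable.list_cons.comp Computable.snd (Computable.const []))
  have ht : Computable fun p : List (List α) × α => p.1.tail :=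
    Primrec.list_tail.to_comp.comp Computable.fst
  have htop : Computable fun p : List (List α) × α =>
      (p.1.head?.bind List.head?).elim false (fun b => decide (c b = c p.2)) :=
    (Computable.option_casesOn (f := fun _ => false)
      (Computable.option_bind (Primrec.list_head?.to_comp.comp Computable.fst)
        (Primrec.list_head?.to_comp.comp Computable.snd).to₂)
      (Computable.const false)
      (hk.comp Computable.snd (Computable.snd.comp Computable.fst)).to₂).of_eq fun p => by
        cases p.1.head?.bind List.head? <;> rfl
  refine (Computable.cond htop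
    (Computable.cond (hTc.comp hs) ht (Computable.list_cons.comp hs ht))
    (Computable.cond
      (hTc.comp (Computable.list_cons.comp Computable.snd (Computable.const [])))
      Computable.fst
      (Computable.list_cons.comp
        (Computable.list_cons.comp Computable.snd (Computable.const []))
        Computable.fst))).of_eq fun p => rfl

/-- The word problem of a free product is decidable from the one of syllables. -/
theorem computablePred_val [Finite α] (hTc : Computable T) :
    ComputablePred fun w : List α => val c v w = 1 := by
  classical
  refine Computable.computablePred ?_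
  have h := computable_foldl (computable_push c T hTc) ([] : List (List α))
  refine ((Primrec.eq (α := List (List α))).decide.to_comp.comp h (Computable.const [])).of_eq
    fun w => ?_
  simp [val_eq_one_iff c v T hT w]

end

end Vale.Agent.P193.Amb
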