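import Mathlib.GroupTheory.FreeGroup.Reduce
import Mathlib.Algebra.Group.PUnit
import Mathlib.Tactic.Ring
import Mathlib.Tactic.FinCases
import Vale.Agent.P193.Full.Ambient.WordProblem

/-! The group `G * F₂` and its word problem. -/

namespace Vale.Agent.P193.Amb

open Monoid

/-- The factors `G, ℤ, ℤ`. -/
def Fam (G : Type) : Option (Fin 2) → Type
  | none => G
  | some _ => FreeGroup Unit

instance famGroup (G : Type) [Group G] : ∀ o, Group (Fam G o)
  | none => inferInstanceAs (Group G)
  | some _ => inferInstanceAs (Group (FreeGroup Unit))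

/-- The free product of `G` and two infinite cyclic groups. -/
abbrev Gam0 (G : Type) [Group G] := CoprodI (Fam G)

/-- A letter or its inverse. -/
def sgn {H X : Type} [Group H] (f : X → H) (p : X × Bool) : H := if p.2 then f p.1 else (f p.1)⁻¹

/-- Letters of `G * F₂`. -/
abbrev L (n : ℕ) := (Fin n × Bool) ⊕ (Fin 2 × Bool)

/-- The colour of a letter. -/
def col {n : ℕ} : L n → Option (Fin 2)
  | .inl _ => none
  | .inr x => some x.1

variable {G : Type} [Group G] {n : ℕ} (gen : Fin n → G)

/-- The value of a letter in its factor. -/
def lv : ∀ a : L n, Fam G (col a)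
  | .inl p => (sgn gen p : G)
  | .inr p => (sgn (fun _ : Fin 2 => FreeGroup.of Unit.unit) p : FreeGroup Unit)

/-- The value of a letter. -/
def genL (a : L n) : Gam0 G := CoprodI.of (lv gen a)

/-- The exponent of an element of the infinite cyclic group. -/
def expo : FreeGroup Unit →* Multiplicative ℤ :=
  FreeGroup.lift fun _ => Multiplicative.ofAdd 1

theorem eq_zpow_expo (x : FreeGroup Unit) :
    FreeGroup.of Unit.unit ^ (Multiplicative.toAdd (expo x)) = x := by
  refine FreeGroup.induction_on x (by simp) (fun _ => ?_) (fun x h => ?_) (fun x y hx hy => ?_)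
  · change FreeGroup.of () ^ Multiplicative.toAdd (expo (FreeGroup.of ())) = FreeGroup.of ()
    simp [expo]
  · simp only [map_inv, toAdd_inv, zpow_neg] at *
    rw [h]
  · rw [map_mul, toAdd_mul, zpow_add, hx, hy]

/-- The retraction onto `G`. -/
def toG : Gam0 G →* G :=
  CoprodI.lift fun o => match o with
    | none => (MonoidHom.id G : Fam G none →* G)
    | some _ => 1

/-- The exponent of one of the two free letters. -/
def toZ (i : Fin 2) : Gam0 G →* Multiplicative ℤ :=
  CoprodI.lift fun o => match o with
    | none => 1
    | some j => if j = i then (expo : Fam G (some j) →* Multiplicative ℤ) else 1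

/-- The retraction onto `F₂`. -/
def toF : Gam0 G →* FreeGroup (Fin 2) :=
  CoprodI.lift fun o => match o with
    | none => 1
    | some j => (FreeGroup.lift fun _ => FreeGroup.of j : Fam G (some j) →* FreeGroup (Fin 2))

theorem toG_none (x : G) : toG (CoprodI.of (M := Fam G) (i := none) x) = x :=
  CoprodI.lift_of _ _

theorem toG_some (j : Fin 2) (x : FreeGroup Unit) :
    toG (CoprodI.of (M := Fam G) (i := some j) x) = 1 :=
  CoprodI.lift_of _ _

theorem toZ_none (i : Fin 2) (x : G) : toZ i (CoprodI.of (M := Fam G) (i := none) x) = 1 :=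
  CoprodI.lift_of _ _

theorem toZ_some (i j : Fin 2) (x : FreeGroup Unit) :
    toZ i (CoprodI.of (M := Fam G) (i := some j) x) = if j = i then expo x else 1 := by
  refine (CoprodI.lift_of _ _).trans ?_
  by_cases h : j = i <;> simp [h] <;> rfl

theorem toF_some (j : Fin 2) (x : FreeGroup Unit) :
    toF (CoprodI.of (M := Fam G) (i := some j) x) =
      (FreeGroup.lift fun _ => FreeGroup.of j : FreeGroup Unit →* FreeGroup (Fin 2)) x :=
  CoprodI.lift_of _ _

/-- `F₂` inside `G * F₂`. -/
def inF : FreeGroup (Fin 2) →* Gam0 G :=
  FreeGroup.lift fun i => CoprodI.of (M := Fam G) (i := some i) (FreeGroup.of Unit.unit)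

theorem toF_inF (x : FreeGroup (Fin 2)) : toF (G := G) (inF x) = x := by
  suffices toF.comp (inF (G := G)) = MonoidHom.id _ from DFunLike.congr_fun this x
  ext i
  simp only [MonoidHom.comp_apply, inF, FreeGroup.lift_apply_of, MonoidHom.id_apply]
  exact (toF_some i _).trans FreeGroup.lift_apply_of

theorem inF_injective : Function.Injective (inF (G := G)) :=
  Function.LeftInverse.injective toF_inF

omit [Group G] in
theorem prod_map_filterMap {X Y H : Type} [Monoid H] (g : X → H) (h : X → Option Y) (k : Y → H)
    (hg : ∀ a, g a = (h a).elim 1 k) (w : List X) :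
    (w.map g).prod = ((w.filterMap h).map k).prod := by
  induction w with
  | nil => simp
  | cons a w ih =>
    rw [List.map_cons, List.prod_cons, ih, hg a, List.filterMap_cons]
    cases h a <;> simp

theorem toG_val (u : List (L n)) :
    toG (val col (lv gen) u) = ((u.filterMap Sum.getLeft?).map (sgn gen)).prod := by
  rw [val, map_list_prod, List.map_map]
  refine prod_map_filterMap _ _ _ (fun a => ?_) u
  rcases a with p | p
  · exact toG_none _
  · exact toG_some _ _

/-- The number of occurrences of a letter. -/
def cnt (x : L n) (u : List (L n)) : ℕ := (u.filter fun a => decide (a = x)).length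

theorem toZ_val (i : Fin 2) (u : List (L n)) :
    toZ i (val col (lv gen) u) =
      Multiplicative.ofAdd ((cnt (.inr (i, true)) u : ℤ) - cnt (.inr (i, false)) u) := by
  induction u with
  | nil => simp [val, cnt]
  | cons a u ih =>
    have hc : ∀ x, cnt x (a :: u) = (if a = x then 1 else 0) + cnt x u := fun x => by
      unfold cnt
      by_cases h : a = x <;> simp [h, Nat.add_comm]
    have he : toZ i (CoprodI.of (lv gen a)) = Multiplicative.ofAdd
        ((if a = .inr (i, true) then 1 else 0) - (if a = .inr (i, false) then 1 else 0) : ℤ) := by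
      rcases a with p | ⟨j, b⟩
      · refine (toZ_none i _).trans ?_
        simp
      · refine (toZ_some i j _).trans ?_
        by_cases h : j = i
        · subst h
          cases b <;> simp [sgn, expo, lv]
        · simp [h]
    rw [show val col (lv gen) (a :: u) = CoprodI.of (lv gen a) * val col (lv gen) u by
      simp [val], map_mul, ih, he, hc, hc, ← ofAdd_add]
    push_cast
    congr 1
    ring

theorem computable_cnt (x : L n) : Computable (cnt x) :=
  (Primrec.list_length.comp
    (Primrec.listFilter (Primrec.eq.comp Primrec.id (Primrec.const x)))).to_comp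

/-- The word problem of `G * F₂`. -/
theorem computablePred_gam0
    (hG : ComputablePred fun w : List (Fin n × Bool) => (w.map (sgn gen)).prod = 1) :
    ComputablePred fun w : List (L n) => (w.map (genL gen)).prod = 1 := by
  classical
  let bal : Fin 2 → List (L n) → Bool := fun i u =>
    decide (cnt (.inr (i, true)) u = cnt (.inr (i, false)) u)
  let T : List (L n) → Bool := fun u =>
    decide (((u.filterMap Sum.getLeft?).map (sgn gen)).prod = 1) && (bal 0 u && bal 1 u)
  have hbal : ∀ i, Computable (bal i) := fun i =>
    Primrec.eq.decide.to_comp.comp (computable_cnt _) (computable_cnt _)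
  have hT : Computable T :=
    Primrec.and.to_comp.comp
      (hG.decide.comp (Primrec.listFilterMap Primrec.id
        (((Primrec.dom_finite Sum.getLeft?).comp Primrec.snd).to₂)).to_comp)
      (Primrec.and.to_comp.comp (hbal 0) (hbal 1))
  have hbal' : ∀ i u, bal i u = true ↔ toZ i (val col (lv gen) u) = 1 := fun i u => by
    rw [toZ_val gen, ← ofAdd_zero, Multiplicative.ofAdd.injective.eq_iff, sub_eq_zero,
      Nat.cast_inj]
    simp [bal]
  have spec : ∀ u i, (∀ b ∈ u, col b = i) → (T u = true ↔ val col (lv gen) u = 1) := by
    intro u i hu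
    have hTu : T u = true ↔ toG (val col (lv gen) u) = 1 ∧
        toZ 0 (val col (lv gen) u) = 1 ∧ toZ 1 (val col (lv gen) u) = 1 := by
      rw [← hbal', ← hbal', toG_val gen]
      simp [T]
    rw [hTu]
    refine ⟨fun h => ?_, fun h => by simp [h]⟩
    obtain ⟨x, hx⟩ := exists_mono col (lv gen) hu
    rw [hx] at h ⊢
    obtain ⟨h1, h2, h3⟩ := h
    cases i with
    | none =>
      have : x = 1 := (toG_none x).symm.trans h1
      rw [this, map_one]
    | some j =>
      have : toZ (G := G) j (CoprodI.of x) = 1 := by fin_cases j <;> assumption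
      have hx' : expo x = 1 := by
        have h' := (toZ_some (G := G) j j x).symm.trans this
        rwa [if_pos rfl] at h'
      have : x = (1 : FreeGroup Unit) :=
        (eq_zpow_expo x).symm.trans (by rw [hx', toAdd_one, zpow_zero])
      rw [this]
      exact map_one _
  haveI : Inhabited (L n) := ⟨.inr (0, true)⟩
  exact computablePred_val col (lv gen) T spec hT

/-- The word problem of `F₂`. -/
theorem computablePred_free :
    ComputablePred fun w : List (Fin 2 × Bool) =>
      (w.map (sgn (FreeGroup.of : Fin 2 → FreeGroup (Fin 2)))).prod = 1 := by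
  classical
  let gen : Fin 0 → PUnit := fun i => i.elim0
  have hP : ComputablePred fun w : List (Fin 0 × Bool) => (w.map (sgn gen)).prod = 1 :=
    ⟨inferInstance, (Computable.const true).of_eq fun w => by simp⟩
  have h := (computablePred_gam0 gen hP).decide
  refine Computable.computablePred ((h.comp (Primrec.list_map (f := id) (α := List (Fin 2 × Bool))
    Primrec.id (g := fun _ x => (Sum.inr x : L 0))
    (Primrec.sumInr.comp Primrec.snd).to₂).to_comp).of_eq fun w => ?_)
  have e : ∀ x : Fin 2 × Bool, genL gen (Sum.inr x) =
      inF (G := PUnit) (sgn (FreeGroup.of : Fin 2 → FreeGroup (Fin 2)) x) := by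
    rintro ⟨i, b⟩
    cases b <;> simp [genL, lv, sgn, inF, col] <;> rfl
  rw [decide_eq_decide, List.map_map, ← map_eq_one_iff (inF (G := PUnit)) inF_injective,
    map_list_prod, List.map_map]
  simp only [Function.comp_def, e, id_eq]

end Vale.Agent.P193.Amb
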