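import Mathlib.GroupTheory.Coprod.Basic
import Mathlib.GroupTheory.CoprodI
import Mathlib.Tactic.Group
import Mathlib.Tactic.Positivity
import Mathlib.Tactic.Ring
import Mathlib.Order.Interval.Set.Infinite
import Vale.Agent.P193.Full.Interfaces
import Vale.Agent.P193.Full.Ambient.WordProblem

/-! Free products with an infinite cyclic part are mixed identity free. -/

namespace Vale.Agent.P193.Amb

open Monoid

/-- A sign as an integer. -/
def sg (s : Bool) : ℤ := bif s then 1 else -1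

theorem sg_cases (s : Bool) : sg s = 1 ∨ sg s = -1 := by cases s <;> simp [sg]

section

variable {Γ : Type} [Group Γ]

/-- The free letter. -/
def X : Coprod Γ (FreeGroup Unit) := Coprod.inr (FreeGroup.of Unit.unit)

/-- A mixed word from its constant and its list of signs and constants. -/
def ev (g₀ : Γ) (L : List (Bool × Γ)) : Coprod Γ (FreeGroup Unit) :=
  Coprod.inl g₀ * (L.map fun p => X ^ sg p.1 * Coprod.inl p.2).prod

/-- Having a reduced mixed word. -/
def HasForm (w : Coprod Γ (FreeGroup Unit)) : Prop :=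
  ∃ g₀ L, List.IsChain (fun p q : Bool × Γ => p.2 = 1 → p.1 = q.1) L ∧ w = ev g₀ L

theorem hasForm_inl_mul (g : Γ) {w : Coprod Γ (FreeGroup Unit)} (h : HasForm w) :
    HasForm (Coprod.inl g * w) := by
  obtain ⟨g₀, L, hL, rfl⟩ := h
  exact ⟨g * g₀, L, hL, by simp [ev, mul_assoc]⟩

theorem hasForm_X_mul (s : Bool) {w : Coprod Γ (FreeGroup Unit)} (h : HasForm w) :
    HasForm (X ^ sg s * w) := by
  obtain ⟨g₀, L, hL, rfl⟩ := h
  cases L with
  | nil => exact ⟨1, [(s, g₀)], List.isChain_singleton _, by simp [ev]⟩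
  | cons p L =>
    by_cases hc : g₀ = 1 ∧ s ≠ p.1
    · obtain ⟨rfl, hs⟩ := hc
      refine ⟨p.2, L, hL.tail, ?_⟩
      have hp : sg p.1 = -sg s := by cases s <;> cases hp : p.1 <;> simp_all [sg]
      simp [ev, hp, mul_assoc]
    · refine ⟨1, (s, g₀) :: p :: L, List.isChain_cons_cons.2 ⟨?_, hL⟩, by simp [ev, mul_assoc]⟩
      intro hg
      by_contra hs
      exact hc ⟨hg, hs⟩

theorem hasForm_all (w : Coprod Γ (FreeGroup Unit)) : HasForm w := by
  have h1 : HasForm (1 : Coprod Γ (FreeGroup Unit)) := ⟨1, [], List.IsChain.nil, by simp [ev]⟩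
  suffices ∀ x y : Coprod Γ (FreeGroup Unit), HasForm y → HasForm (x * y) by
    simpa using this w 1 h1
  intro x
  induction x using Coprod.induction_on with
  | inl g => exact fun y hy => hasForm_inl_mul g hy
  | inr z =>
    suffices ∀ y, HasForm y → HasForm (Coprod.inr z * y) ∧
        HasForm ((Coprod.inr z : Coprod Γ (FreeGroup Unit))⁻¹ * y) from fun y hy => (this y hy).1
    refine FreeGroup.induction_on z (fun y hy => by simpa using hy) (fun u y hy => ?_)
      (fun u ih y hy => ?_) (fun u v hu hv y hy => ?_)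
    · constructor
      · simpa [X, sg] using hasForm_X_mul true hy
      · simpa [X, sg] using hasForm_X_mul false hy
    · simpa [and_comm] using ih y hy
    · constructor
      · simpa [mul_assoc] using (hu _ (hv y hy).1).1
      · simpa [mul_assoc] using (hv _ (hu y hy).2).2
  | mul a b ha hb => exact fun y hy => by simpa [mul_assoc] using ha _ (hb _ hy)

end

section

variable {ι : Type} [DecidableEq ι] {M : ι → Type} [∀ k, Group (M k)] {i j : ι}
  {a : M i} {b : M j}

theorem neWord_of_ne_one {g : CoprodI M} (hg : g ≠ 1) :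
    ∃ (p q : ι) (W : CoprodI.NeWord M p q), W.prod = g := by
  classical
  have hne : CoprodI.Word.equiv g ≠ CoprodI.Word.empty := fun h => hg <|
    calc g = CoprodI.Word.equiv.symm (CoprodI.Word.equiv g) := (Equiv.symm_apply_apply _ _).symm
      _ = CoprodI.Word.prod CoprodI.Word.empty := by rw [h]; rfl
      _ = 1 := CoprodI.Word.prod_empty
  obtain ⟨p, q, W, hW⟩ := CoprodI.NeWord.of_word _ hne
  refine ⟨p, q, W, ?_⟩
  change W.toWord.prod = g
  rw [hW]
  exact Equiv.symm_apply_apply CoprodI.Word.equiv g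

theorem prod_ne_of_start {p q r t : ι} (W : CoprodI.NeWord M p q) (T : CoprodI.NeWord M r t)
    (h : p ≠ r) : W.prod ≠ T.prod := by
  intro he
  exact neWord_prod_ne_one (CoprodI.NeWord.append W.inv h T) (by simp [he])

variable (ha : Function.Injective fun k : ℤ => a ^ k)
include ha

theorem large_zpow_mul_ne_one (x : M i) :
    ∃ N₀ : ℤ, 0 < N₀ ∧ ∀ k : ℤ, N₀ ≤ |k| → a ^ k * x ≠ 1 := by
  by_cases hm : ∃ m : ℤ, a ^ m = x⁻¹
  · obtain ⟨m, hm⟩ := hm
    refine ⟨|m| + 1, by positivity, fun k hk h => ?_⟩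
    have : k = m := ha (show a ^ k = a ^ m by rw [hm]; exact eq_inv_of_mul_eq_one_left h)
    subst this
    omega
  · exact ⟨1, one_pos, fun k _ h => hm ⟨k, eq_inv_of_mul_eq_one_left h⟩⟩

theorem zpow_ne_one {k : ℤ} (hk : k ≠ 0) : a ^ k ≠ 1 :=
  fun h => hk (ha (show a ^ k = a ^ (0 : ℤ) by rw [h, zpow_zero]))

theorem head_mul {p q : ι} (W : CoprodI.NeWord M p q) :
    ∃ N₀ : ℤ, 0 < N₀ ∧ ∀ k : ℤ, N₀ ≤ |k| →
      ∃ W' : CoprodI.NeWord M i q, W'.prod = CoprodI.of a ^ k * W.prod := by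
  induction W with
  | @singleton p x hx =>
    by_cases hp : i = p
    · subst hp
      obtain ⟨N₀, h0, hN⟩ := large_zpow_mul_ne_one ha x
      exact ⟨N₀, h0, fun k hk => ⟨.singleton (a ^ k * x) (hN k hk), by simp⟩⟩
    · refine ⟨1, one_pos, fun k hk => ⟨.append (.singleton (a ^ k)
        (zpow_ne_one ha (abs_pos.1 (by omega)))) hp (.singleton x hx), by simp⟩⟩
  | @append p q r t W₁ hne W₂ ih _ =>
    obtain ⟨N₀, h0, hN⟩ := ih
    refine ⟨N₀, h0, fun k hk => ?_⟩
    obtain ⟨W', hW'⟩ := hN k hk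
    exact ⟨.append W' hne W₂, by simp [hW', mul_assoc]⟩

theorem tail_mul {p q : ι} (W : CoprodI.NeWord M p q) :
    ∃ N₀ : ℤ, 0 < N₀ ∧ ∀ k : ℤ, N₀ ≤ |k| →
      ∃ W' : CoprodI.NeWord M p i, W'.prod = W.prod * CoprodI.of a ^ k := by
  obtain ⟨N₀, h0, hN⟩ := head_mul ha W.inv
  refine ⟨N₀, h0, fun k hk => ?_⟩
  obtain ⟨W', hW'⟩ := hN (-k) (by rwa [abs_neg])
  exact ⟨W'.inv, by simp [hW']⟩

theorem conj_mul (g : CoprodI M) :
    ∃ N₀ : ℤ, 0 < N₀ ∧ ∀ N : ℤ, N₀ ≤ N → ∀ s t : Bool, (g = 1 → s = t) →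
      ∃ W : CoprodI.NeWord M i i,
        W.prod = CoprodI.of a ^ (sg s * N) * g * CoprodI.of a ^ (sg t * N) := by
  have habs : ∀ (s : Bool) (N : ℤ), |sg s * N| = |N| := fun s N => by
    rcases sg_cases s with h | h <;> simp [h]
  by_cases hg : g = 1
  · refine ⟨1, one_pos, fun N hN s t hst => ?_⟩
    obtain rfl := hst hg
    have : sg s * N + sg s * N ≠ 0 := by rcases sg_cases s with h | h <;> rw [h] <;> omega
    exact ⟨.singleton (a ^ (sg s * N + sg s * N)) (zpow_ne_one ha this),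
      by simp [hg, zpow_add]⟩
  obtain ⟨p, q, W, rfl⟩ := neWord_of_ne_one hg
  cases W with
  | singleton x hx =>
    by_cases hp : i = p
    · subst hp
      by_cases hm : ∃ m : ℤ, a ^ m = x
      · obtain ⟨m, rfl⟩ := hm
        have hm0 : m ≠ 0 := fun h => hx (by rw [h, zpow_zero])
        refine ⟨|m| + 1, by positivity, fun N hN s t _ => ?_⟩
        have hne : sg s * N + m + sg t * N ≠ 0 := by
          have := le_abs_self m
          have := neg_le_abs m
          rcases sg_cases s with h | h <;> rcases sg_cases t with h' | h' <;> rw [h, h'] <;> omega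
        exact ⟨.singleton (a ^ (sg s * N + m + sg t * N)) (zpow_ne_one ha hne),
          by simp [zpow_add]⟩
      · refine ⟨1, one_pos, fun N _ s t _ => ⟨.singleton
          (a ^ (sg s * N) * x * a ^ (sg t * N)) (fun h => hm ⟨-(sg s * N) + -(sg t * N), ?_⟩),
          by simp⟩⟩
        calc a ^ (-(sg s * N) + -(sg t * N))
            = a ^ (-(sg s * N)) * 1 * a ^ (-(sg t * N)) := by rw [mul_one, zpow_add]
          _ = x := by rw [← h]; group
    · refine ⟨1, one_pos, fun N hN s t _ => ?_⟩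
      have hn : ∀ s, sg s * N ≠ 0 := fun s => by rcases sg_cases s with h | h <;> rw [h] <;> omega
      exact ⟨.append (.singleton _ (zpow_ne_one ha (hn s))) hp
        (.append (.singleton x hx) (Ne.symm hp) (.singleton _ (zpow_ne_one ha (hn t)))),
        by simp [mul_assoc]⟩
  | append W₁ hne W₂ =>
    obtain ⟨N₁, h1, hN₁⟩ := head_mul ha W₁
    obtain ⟨N₂, -, hN₂⟩ := tail_mul ha W₂
    refine ⟨max N₁ N₂, lt_max_of_lt_left h1, fun N hN s t _ => ?_⟩
    obtain ⟨W', hW'⟩ := hN₁ (sg s * N) (by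
      rw [habs]; exact ((le_max_left _ _).trans hN).trans (le_abs_self N))
    obtain ⟨W'', hW''⟩ := hN₂ (sg t * N) (by
      rw [habs]; exact ((le_max_right _ _).trans hN).trans (le_abs_self N))
    exact ⟨.append W' hne W'', by simp [hW', hW'', mul_assoc]⟩

variable (hij : i ≠ j) (hb : b ≠ 1)
include hij hb

theorem subst_shape : ∀ (L : List (Bool × CoprodI M)) (s : Bool) (g : CoprodI M),
    List.IsChain (fun p q : Bool × CoprodI M => p.2 = 1 → p.1 = q.1) ((s, g) :: L) →
    ∃ c, ∃ N₀ : ℤ, 0 < N₀ ∧ ∀ N : ℤ, N₀ ≤ N → ∃ T : CoprodI.NeWord M j i,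
      (((s, g) :: L).map fun p =>
        (CoprodI.of a ^ N * CoprodI.of b * CoprodI.of a ^ N) ^ sg p.1 * p.2).prod =
          CoprodI.of a ^ (sg s * N) * T.prod * c := by
  have hu : ∀ (s : Bool) (N : ℤ),
      (CoprodI.of a ^ N * CoprodI.of b * CoprodI.of a ^ N : CoprodI M) ^ sg s =
        CoprodI.of a ^ (sg s * N) * CoprodI.of (b ^ sg s) * CoprodI.of a ^ (sg s * N) := by
    intro s N
    cases s <;> simp [sg, mul_assoc]
  have hbs : ∀ s, b ^ sg s ≠ 1 := fun s => by cases s <;> simpa [sg] using hb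
  intro L
  induction L with
  | nil =>
    intro s g _
    refine ⟨g, 1, one_pos, fun N hN => ?_⟩
    have hn : sg s * N ≠ 0 := by rcases sg_cases s with h | h <;> rw [h] <;> omega
    exact ⟨.append (.singleton _ (hbs s)) hij.symm (.singleton _ (zpow_ne_one ha hn)),
      by rw [List.map_singleton, List.prod_singleton, hu]; simp [mul_assoc]⟩
  | cons q L ih =>
    intro s g hL
    obtain ⟨t, g'⟩ := q
    rw [List.isChain_cons_cons] at hL
    obtain ⟨c, N₁, h1, hN₁⟩ := ih t g' hL.2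
    obtain ⟨N₂, -, hN₂⟩ := conj_mul ha g
    refine ⟨c, max N₁ N₂, lt_max_of_lt_left h1, fun N hN => ?_⟩
    obtain ⟨T, hT⟩ := hN₁ N ((le_max_left _ _).trans hN)
    obtain ⟨W, hW⟩ := hN₂ N ((le_max_right _ _).trans hN) s t hL.1
    refine ⟨.append (.singleton _ (hbs s)) hij.symm (.append W hij T), ?_⟩
    rw [List.map_cons, List.prod_cons, hT, hu]
    simp [hW, mul_assoc]

/-- A free product with an element of infinite order in one factor and a nontrivial element in
another one is mixed identity free. -/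
theorem mif_coprodI : MixedIdentityFree (CoprodI M) := by
  classical
  intro w hw E
  let A : CoprodI M := CoprodI.of a
  let B : CoprodI M := CoprodI.of b
  have hinj : Set.InjOn (fun N : ℤ => A ^ N * B * A ^ N) Set.univ := by
    intro N _ N' _ h
    by_contra hne
    have hd : N - N' ≠ 0 := sub_ne_zero.2 hne
    refine prod_ne_of_start (.append (.singleton _ (zpow_ne_one ha hd)) hij
      (.append (.singleton b hb) hij.symm (.singleton _ (zpow_ne_one ha hd))))
      (.singleton b hb) hij ?_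
    have h' : A ^ (-N') * (A ^ N * B * A ^ N) * A ^ (-N') = B := by
      rw [show A ^ N * B * A ^ N = A ^ N' * B * A ^ N' from h]; group
    simp only [CoprodI.NeWord.append_prod, CoprodI.NeWord.prod_singleton, map_zpow]
    calc A ^ (N - N') * (B * A ^ (N - N'))
        = A ^ (-N') * (A ^ N * B * A ^ N) * A ^ (-N') := by group
      _ = B := h'
  obtain ⟨g₀, L, hL, rfl⟩ := hasForm_all w
  have large : ∀ N₀ : ℤ, ∃ N, N₀ ≤ N ∧ A ^ N * B * A ^ N ∉ E := fun N₀ => by
    obtain ⟨u, ⟨N, hN, rfl⟩, hu⟩ :=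
      ((Set.Ici_infinite N₀).image (hinj.mono (Set.subset_univ _))).exists_notMem_finset E
    exact ⟨N, hN, hu⟩
  cases L with
  | nil =>
    obtain ⟨N, -, hN⟩ := large 0
    refine ⟨_, hN, fun h => hw ?_⟩
    have : g₀ = 1 := by simpa [ev] using h
    simp [ev, this]
  | cons p L =>
    obtain ⟨s, g⟩ := p
    obtain ⟨c, N₁, h1, hN₁⟩ := subst_shape ha hij hb L s g hL
    obtain ⟨N₂, h2, hN₂⟩ : ∃ N₀ : ℤ, 0 < N₀ ∧ ∀ k : ℤ, N₀ ≤ |k| →
        ∃ q, ∃ W : CoprodI.NeWord M i q, W.prod = A ^ k * (g₀⁻¹ * c⁻¹) := by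
      by_cases hh : g₀⁻¹ * c⁻¹ = 1
      · refine ⟨1, one_pos, fun k hk => ⟨i, .singleton (a ^ k)
          (zpow_ne_one ha (abs_pos.1 (by omega))), by simp [hh, A]⟩⟩
      · obtain ⟨p, q, W, hW⟩ := neWord_of_ne_one hh
        obtain ⟨N₀, h0, hN⟩ := head_mul ha W
        refine ⟨N₀, h0, fun k hk => ?_⟩
        obtain ⟨W', hW'⟩ := hN k hk
        exact ⟨q, W', by rw [hW', hW]⟩
    obtain ⟨N, hN, hu⟩ := large (max N₁ N₂)
    refine ⟨_, hu, fun h => ?_⟩
    obtain ⟨T, hT⟩ := hN₁ N ((le_max_left _ _).trans hN)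
    obtain ⟨q, W, hW⟩ := hN₂ (-(sg s * N)) (by
      rw [abs_neg]
      rcases sg_cases s with hs | hs <;> rw [hs] <;>
        simpa using ((le_max_right _ _).trans hN).trans (le_abs_self N))
    refine prod_ne_of_start T W hij.symm ?_
    rw [hW]
    have h3 : g₀ * (A ^ (sg s * N) * T.prod * c) = 1 := by
      rw [← hT, ← h]
      simp [ev, X, List.map_map, map_list_prod, Function.comp_def, A, B]
    calc T.prod = A ^ (-(sg s * N)) * g₀⁻¹ * (g₀ * (A ^ (sg s * N) * T.prod * c)) * c⁻¹ := by group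
      _ = A ^ (-(sg s * N)) * (g₀⁻¹ * c⁻¹) := by rw [h3]; group

end

theorem mif_of_equiv {Γ Δ : Type} [Group Γ] [Group Δ] (e : Γ ≃* Δ) (h : MixedIdentityFree Δ) :
    MixedIdentityFree Γ := by
  classical
  intro w hw E
  let F : Coprod Γ (FreeGroup Unit) →* Coprod Δ (FreeGroup Unit) :=
    Coprod.map e.toMonoidHom (MonoidHom.id _)
  let F' : Coprod Δ (FreeGroup Unit) →* Coprod Γ (FreeGroup Unit) :=
    Coprod.map e.symm.toMonoidHom (MonoidHom.id _)
  have hF : F'.comp F = MonoidHom.id _ := by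
    apply Coprod.hom_ext <;> ext x <;> simp [F, F']
  have hw' : F w ≠ 1 := fun h1 => hw <| by
    have := DFunLike.congr_fun hF w
    rw [MonoidHom.comp_apply, h1, map_one] at this
    simpa using this.symm
  obtain ⟨u, hu, hne⟩ := h (F w) hw' (E.image e)
  refine ⟨e.symm u, fun hm => hu (Finset.mem_image.2 ⟨_, hm, e.apply_symm_apply u⟩), fun h1 => ?_⟩
  refine hne ?_
  have key : (Coprod.lift (MonoidHom.id Δ) (FreeGroup.lift fun _ => u)).comp F =
      e.toMonoidHom.comp
        (Coprod.lift (MonoidHom.id Γ) (FreeGroup.lift fun _ => e.symm u)) := by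
    apply Coprod.hom_ext <;> ext x <;> simp [F]
  have := DFunLike.congr_fun key w
  simp only [MonoidHom.comp_apply] at this
  rw [this, h1, map_one]

end Vale.Agent.P193.Amb
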