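import Vale.Agent.P193.Full.Ambient.FreeIndex
import Vale.Agent.P193.Full.Ambient.Group
import Vale.Agent.P193.Full.Ambient.Mif

/-! The ambient group of a finitely generated group with decidable word problem. -/

namespace Vale.Agent.P193.Amb

open Monoid

/-- Being the product of a word in the given letters. -/
def Words {X H : Type} [Monoid H] (g : X → H) (h : H) : Prop := ∃ w : List X, (w.map g).prod = h

theorem Words.mul {X H : Type} [Monoid H] {g : X → H} {a b : H} (ha : Words g a)
    (hb : Words g b) : Words g (a * b) := by
  obtain ⟨u, rfl⟩ := ha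
  obtain ⟨v, rfl⟩ := hb
  exact ⟨u ++ v, by simp⟩

theorem Words.map {X Y H K : Type} [Monoid H] [Monoid K] {v : X → H} {g : Y → K} {h : H}
    (hw : Words v h) (f : H →* K) (σ : X → Y) (hσ : ∀ x, g (σ x) = f (v x)) : Words g (f h) := by
  obtain ⟨w, rfl⟩ := hw
  exact ⟨w.map σ, by simp [map_list_prod, Function.comp_def, hσ]⟩

theorem sgn_inv {X H : Type} [Group H] (f : X → H) (w : List (X × Bool)) :
    ((w.map (sgn f)).prod)⁻¹ = (((w.map fun p => (p.1, !p.2)).reverse).map (sgn f)).prod := by
  induction w with
  | nil => simp
  | cons p w ih =>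
    obtain ⟨x, b⟩ := p
    rw [List.map_cons, List.prod_cons, mul_inv_rev, ih]
    cases b <;> simp [sgn]

theorem words_sgn {X H : Type} [Group H] (f : X → H) (hf : Subgroup.closure (Set.range f) = ⊤)
    (h : H) : Words (sgn f) h := by
  have hm : h ∈ Subgroup.closure (Set.range f) := by rw [hf]; trivial
  induction hm using Subgroup.closure_induction with
  | mem x hx =>
    obtain ⟨i, rfl⟩ := hx
    exact ⟨[(i, true)], by simp [sgn]⟩
  | one => exact ⟨[], rfl⟩
  | mul x y _ _ hx hy => exact hx.mul hy
  | inv x _ hx =>
    obtain ⟨w, rfl⟩ := hx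
    exact ⟨_, (sgn_inv f w).symm⟩

theorem words_genL {G : Type} [Group G] {n : ℕ} (gen : Fin n → G)
    (hgen : Subgroup.closure (Set.range gen) = ⊤) (x : Gam0 G) : Words (genL gen) x := by
  induction x using CoprodI.induction_on with
  | one => exact ⟨[], rfl⟩
  | mul x y hx hy => exact hx.mul hy
  | of o m =>
    cases o with
    | none =>
      exact (words_sgn gen hgen m).map (g := genL gen) (CoprodI.of (M := Fam G) (i := none))
        Sum.inl (fun p => rfl)
    | some j =>
      refine (words_sgn (FreeGroup.of : Unit → FreeGroup Unit)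
        (FreeGroup.closure_range_of _) m).map (CoprodI.of (M := Fam G) (i := some j))
        (fun p => Sum.inr (j, p.2)) fun p => ?_
      obtain ⟨u, b⟩ := p
      cases b <;> rfl

theorem expo_zpow_injective :
    Function.Injective fun k : ℤ => (FreeGroup.of Unit.unit) ^ k := by
  intro k l h
  simpa [expo, ← ofAdd_zsmul] using congrArg expo h

theorem mif_gam0 (G : Type) [Group G] : MixedIdentityFree (Gam0 G) :=
  mif_coprodI (M := Fam G) (i := some 0) (j := some 1) (a := FreeGroup.of Unit.unit)
    (b := FreeGroup.of Unit.unit) expo_zpow_injective (by decide) (FreeGroup.of_ne_one _)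

theorem mif_free : MixedIdentityFree (FreeGroup (Fin 2)) :=
  mif_of_equiv freeGroupEquivCoprodI
    (mif_coprodI (M := fun _ : Fin 2 => FreeGroup Unit) (i := 0) (j := 1)
      (a := FreeGroup.of Unit.unit) (b := FreeGroup.of Unit.unit) expo_zpow_injective (by decide)
      (FreeGroup.of_ne_one _))

/-- All letters of the ambient group. -/
abbrev Big (n : ℕ) := L n ⊕ ((Fin 2 × Bool) ⊕ (Fin 2 × Bool))

/-- The value of a letter of the ambient group. -/
def bigVal {G : Type} [Group G] {n : ℕ} (gen : Fin n → G) :
    Big n → Gam0 G × FreeGroup (Fin 2) × FreeGroup (Fin 2)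
  | .inl a => (genL gen a, 1, 1)
  | .inr (.inl x) => (1, sgn FreeGroup.of x, 1)
  | .inr (.inr x) => (1, 1, sgn FreeGroup.of x)

/-- The ambient group exists. -/
theorem exists_ambient {G : Type} [Group G] {n : ℕ} (gen : Fin n → G)
    (hgen : Subgroup.closure (Set.range gen) = ⊤)
    (hwp : ComputablePred fun w : List (Fin n × Bool) =>
      (w.map fun p => if p.2 then gen p.1 else (gen p.1)⁻¹).prod = 1) :
    Nonempty (Ambient G) := by
  classical
  have hwp' : ComputablePred fun w : List (Fin n × Bool) => (w.map (sgn gen)).prod = 1 := hwp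
  let N := Fintype.card (Big n)
  let e : Fin N ≃ Big n := (Fintype.equivFin (Big n)).symm
  let g : Fin N → Gam0 G × FreeGroup (Fin 2) × FreeGroup (Fin 2) := fun i => bigVal gen (e i)
  let h₁ : Fin N → Option (L n) := fun i => (e i).getLeft?
  let h₂ : Fin N → Option (Fin 2 × Bool) := fun i => (e i).getRight?.bind Sum.getLeft?
  let h₃ : Fin N → Option (Fin 2 × Bool) := fun i => (e i).getRight?.bind Sum.getRight?
  have key : ∀ w : List (Fin N), (w.map g).prod = 1 ↔
      ((w.filterMap h₁).map (genL gen)).prod = 1 ∧
        ((w.filterMap h₂).map (sgn FreeGroup.of)).prod = 1 ∧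
        ((w.filterMap h₃).map (sgn FreeGroup.of)).prod = 1 := by
    intro w
    have e₁ : ((w.map g).prod).1 = ((w.filterMap h₁).map (genL gen)).prod := by
      rw [← MonoidHom.coe_fst, map_list_prod, List.map_map]
      refine prod_map_filterMap _ _ _ (fun i => ?_) w
      simp only [Function.comp_apply, g, h₁]
      rcases e i with a | x | x <;> rfl
    have e₂ : ((w.map g).prod).2.1 = ((w.filterMap h₂).map (sgn FreeGroup.of)).prod := by
      change ((MonoidHom.fst _ _).comp (MonoidHom.snd _ _)) (w.map g).prod = _
      rw [map_list_prod, List.map_map]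
      refine prod_map_filterMap _ _ _ (fun i => ?_) w
      simp only [Function.comp_apply, g, h₂]
      rcases e i with a | x | x <;> rfl
    have e₃ : ((w.map g).prod).2.2 = ((w.filterMap h₃).map (sgn FreeGroup.of)).prod := by
      change ((MonoidHom.snd _ _).comp (MonoidHom.snd _ _)) (w.map g).prod = _
      rw [map_list_prod, List.map_map]
      refine prod_map_filterMap _ _ _ (fun i => ?_) w
      simp only [Function.comp_apply, g, h₃]
      rcases e i with a | x | x <;> rfl
    rw [Prod.ext_iff, Prod.ext_iff, e₁, e₂, e₃]
    rfl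
  have hfm : ∀ {Y : Type} [Primcodable Y] (h : Fin N → Option Y),
      Computable fun w : List (Fin N) => w.filterMap h := fun h =>
    (Primrec.listFilterMap Primrec.id ((Primrec.dom_finite h).comp Primrec.snd).to₂).to_comp
  have hwpN : ComputablePred fun w : List (Fin N) => (w.map g).prod = 1 := by
    refine Computable.computablePred (((Primrec.and.to_comp.comp
      ((computablePred_gam0 gen hwp').decide.comp (hfm h₁))
      (Primrec.and.to_comp.comp (computablePred_free.decide.comp (hfm h₂))
        (computablePred_free.decide.comp (hfm h₃))))).of_eq fun w => ?_)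
    simp [key]
  have hsurj : ∀ x, ∃ w : List (Fin N), (w.map g).prod = x := by
    intro x
    have hb : Words (bigVal gen) x := by
      have h1 : Words (bigVal gen) (MonoidHom.inl _ _ x.1) :=
        (words_genL gen hgen x.1).map (g := bigVal gen) (MonoidHom.inl (Gam0 G) _) Sum.inl fun a => rfl
      have h2 : Words (bigVal gen) (((MonoidHom.inr (Gam0 G) _).comp (MonoidHom.inl _ _)) x.2.1) :=
        (words_sgn FreeGroup.of (FreeGroup.closure_range_of _) x.2.1).map _
          (fun a => Sum.inr (Sum.inl a)) fun a => rfl
      have h3 : Words (bigVal gen) (((MonoidHom.inr (Gam0 G) _).comp (MonoidHom.inr _ _)) x.2.2) :=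
        (words_sgn FreeGroup.of (FreeGroup.closure_range_of _) x.2.2).map _
          (fun a => Sum.inr (Sum.inr a)) fun a => rfl
      have := h1.mul (h2.mul h3)
      simpa using this
    obtain ⟨w, rfl⟩ := hb
    exact ⟨w.map e.symm, by simp [g, Function.comp_def]⟩
  exact ⟨{ Γ₀ := Gam0 G
           group := inferInstance
           n := N
           gen := g
           gen_surj := hsurj
           wp := hwpN
           mif := mif_gam0 G
           mif_free := mif_free
           emb := CoprodI.of (M := Fam G) (i := none)
           emb_inj := CoprodI.of_injective (M := Fam G) none }⟩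

end Vale.Agent.P193.Amb
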